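import Vale.Agent.P181.H744.Rows3
import Vale.Agent.P181.H162.Par6

set_option autoImplicit false

namespace Vale.Agent.P181.H744

/-- **[LC2]** of H162/Par6. -/
theorem rows_stmt : Vale.Agent.P181.H162.RowsStmt :=
  fun k b R K wm Nl lam tau h1 h2 h3 h4 h5 =>
    Vale.Agent.P181.T6.rows3 k b R K wm Nl lam tau h1 h2 h3 h4 h5

end Vale.Agent.P181.H744
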