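import Mathlib

/-! P181 T6, leaf [LC] of helper162: number of normal points, of pure letters and the exponents
of the special letters. -/

set_option autoImplicit false

namespace Vale.Agent.P181.T6

open Finset

/-- Splitting of a remainder into the two larger special exponents. -/
theorem split_two (a s : ℕ) (ha : 100 ≤ a) (hs : s < a) :
    ∃ x y : ℕ, x + y = 2 * (a / 5 + 1) + 1 + s ∧ a / 5 + 1 ≤ x ∧ x < y ∧ 5 * y ≤ 4 * a := by
  by_cases h : (2 * (a / 5 + 1) + 1 + s) - (a / 5 + 1) ≤ 4 * a / 5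
  · exact ⟨a / 5 + 1, (2 * (a / 5 + 1) + 1 + s) - (a / 5 + 1), by omega, le_rfl, by omega, by omega⟩
  · exact ⟨(2 * (a / 5 + 1) + 1 + s) - 4 * a / 5, 4 * a / 5, by omega, by omega, by omega, by omega⟩

/-- [LC] The number of normal points, of pure letters and the exponents of the special letters.
`tau q r` = number of test marks of the normal point `q` in the row `r`. -/
theorem exists_rows (a b R K wm : ℕ) (lam : ℕ → ℕ) (tau : ℕ → ℕ → ℕ) (ha : 100 ≤ a)
    (hK : 5 * (K + R + 2) ≤ a)
    (hlam : ∀ r < R, a * (wm + 3) + ∑ q ∈ range b, tau q r ≤ lam r)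
    (htop : 2 * ∑ r ∈ range R, lam r + 6 * a * R ≤ a * b) :
    ∃ (N : ℕ) (w : ℕ → ℕ) (rho : ℕ → Fin 3 → ℕ), N ≤ b ∧ b ≤ 2 * N ∧
      (∀ r < R, lam r = a * w r + ∑ q ∈ range N, tau q r + (rho r 0 + rho r 1 + rho r 2)) ∧
      (∀ r < R, wm ≤ w r) ∧ ∑ r ∈ range R, w r + (3 * R + N) = b ∧
      ∀ r < R, rho r 0 = K + 1 + r ∧ K + R < rho r 1 ∧ rho r 1 < rho r 2 ∧
        5 * rho r 2 ≤ 4 * a := by
  classical
  have ha0 : 0 < a := by omega
  -- the sum of the marks of the first N points
  set t : ℕ → ℕ → ℕ := fun N r => ∑ q ∈ range N, tau q r with ht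
  have tmono : ∀ r N N', N ≤ N' → t N r ≤ t N' r := by
    intro r N N' h
    exact Finset.sum_le_sum_of_subset (Finset.range_subset_range.2 h)
  -- base
  set base : ℕ → ℕ := fun r => (K + 1 + r) + (2 * (a / 5 + 1) + 1) with hbase
  set M : ℕ → ℕ → ℕ := fun N r => lam r - t N r - base r with hM
  set w : ℕ → ℕ → ℕ := fun N r => M N r / a with hw
  have hbase_le : ∀ r < R, base r ≤ a := by
    intro r hr
    simp only [hbase]
    omega
  have hMge : ∀ N, N ≤ b → ∀ r < R, a * (wm + 2) ≤ M N r ∧ lam r = M N r + t N r + base r := by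
    intro N hN r hr
    have h1 := hlam r hr
    have h2 := tmono r N b hN
    have h3 := hbase_le r hr
    have h4 : a * (wm + 3) = a * (wm + 2) + a := by ring
    have h5 : ∑ q ∈ range b, tau q r = t b r := rfl
    rw [h5] at h1
    simp only [hM]
    constructor <;> omega
  have wanti : ∀ N N', N ≤ N' → ∀ r, w N' r ≤ w N r := by
    intro N N' h r
    apply Nat.div_le_div_right
    have := tmono r N N' h
    simp only [hM]
    omega
  have aw_le : ∀ N r, a * w N r ≤ lam r := by
    intro N r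
    have h1 : a * (M N r / a) ≤ M N r := Nat.mul_div_le _ _
    have h2 : M N r ≤ lam r := by simp only [hM]; omega
    exact h1.trans h2
  set Phi : ℕ → ℕ := fun N => ∑ r ∈ range R, w N r + (3 * R + N) with hPhi
  have hsumle : ∀ N, 2 * ∑ r ∈ range R, w N r + 6 * R ≤ b := by
    intro N
    have h1 : a * ∑ r ∈ range R, w N r ≤ ∑ r ∈ range R, lam r := by
      rw [Finset.mul_sum]
      exact Finset.sum_le_sum fun r _ => aw_le N r
    have h2 : a * (2 * ∑ r ∈ range R, w N r + 6 * R) ≤ a * b := by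
      calc a * (2 * ∑ r ∈ range R, w N r + 6 * R)
          = 2 * (a * ∑ r ∈ range R, w N r) + 6 * a * R := by ring
        _ ≤ 2 * ∑ r ∈ range R, lam r + 6 * a * R := by omega
        _ ≤ a * b := htop
    exact Nat.le_of_mul_le_mul_left h2 ha0
  have hex : ∃ N, b ≤ Phi N := ⟨b, by simp only [hPhi]; omega⟩
  obtain ⟨hN1, hNmin⟩ : b ≤ Phi (Nat.find hex) ∧ ∀ N < Nat.find hex, Phi N < b :=
    ⟨Nat.find_spec hex, fun N hN => by
      have := Nat.find_min hex hN
      omega⟩
  set N := Nat.find hex with hNdef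
  have hNb : N ≤ b := Nat.find_min' hex (by simp only [hPhi]; omega)
  have hPhiN : Phi N = b := by
    apply le_antisymm _ hN1
    rcases Nat.eq_zero_or_pos N with h0 | hpos
    · have h1 := hsumle 0
      rw [h0]
      simp only [hPhi]
      omega
    · have h1 := hNmin (N - 1) (by omega)
      have h2 : Phi N ≤ Phi (N - 1) + 1 := by
        have h3 : ∑ r ∈ range R, w N r ≤ ∑ r ∈ range R, w (N - 1) r :=
          Finset.sum_le_sum fun r _ => wanti (N - 1) N (by omega) r
        simp only [hPhi]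
        omega
      omega
  have hsplit : ∀ r, ∃ x y : ℕ, x + y = 2 * (a / 5 + 1) + 1 + M N r % a ∧
      a / 5 + 1 ≤ x ∧ x < y ∧ 5 * y ≤ 4 * a := fun r =>
    split_two a (M N r % a) ha (Nat.mod_lt _ ha0)
  choose X Y hXY using hsplit
  refine ⟨N, w N, fun r => ![K + 1 + r, X r, Y r], hNb, ?_, ?_, ?_, ?_, ?_⟩
  · have h1 := hsumle N
    have h2 : ∑ r ∈ range R, w N r + (3 * R + N) = b := hPhiN
    omega
  · intro r hr
    obtain ⟨h1, h2⟩ := hMge N hNb r hr
    obtain ⟨h3, -, -, -⟩ := hXY r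
    have h4 : a * w N r + M N r % a = M N r := Nat.div_add_mod _ _
    have h5 : ∑ q ∈ range N, tau q r = t N r := rfl
    rw [h5]
    simp only [Matrix.cons_val_zero, Matrix.cons_val_one, Matrix.cons_val]
    simp only [hbase] at h2
    omega
  · intro r hr
    obtain ⟨h1, -⟩ := hMge N hNb r hr
    have h2 : wm + 2 ≤ M N r / a := (Nat.le_div_iff_mul_le ha0).2 (by rw [mul_comm]; exact h1)
    show wm ≤ M N r / a
    omega
  · exact hPhiN
  · intro r hr
    obtain ⟨-, h2, h3, h4⟩ := hXY r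
    refine ⟨rfl, ?_, ?_, ?_⟩
    · show K + R < X r
      omega
    · exact h3
    · exact h4

end Vale.Agent.P181.T6
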