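import Mathlib

/-! P181 T6 (Spec v3), leaf [LC']: number of normal points, of pure letters and two special
exponents for every row, all `2 R` exponents different, degree `k`. -/

set_option autoImplicit false

namespace Vale.Agent.P181.T6

open Finset

/-- Greedy choice: pairs `σ/2 - t`, `σ - σ/2 + t` with all entries different. -/
theorem exists_shifts (R : ℕ) (σ : ℕ → ℕ) (hσ : ∀ r, 4 * R + 1 ≤ σ r / 2) (n : ℕ) (hn : n ≤ R) :
    ∃ t : ℕ → ℕ, (∀ r < n, 1 ≤ t r ∧ t r ≤ 4 * R + 1) ∧
      ∀ r < n, ∀ r' < n, r ≠ r' →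
        σ r / 2 - t r ≠ σ r' / 2 - t r' ∧ σ r / 2 - t r ≠ σ r' - σ r' / 2 + t r' ∧
        σ r - σ r / 2 + t r ≠ σ r' - σ r' / 2 + t r' := by
  classical
  induction n with
  | zero => exact ⟨fun _ => 1, fun r hr => absurd hr (by omega), fun r hr => absurd hr (by omega)⟩
  | succ n ih =>
    obtain ⟨t, ht1, ht2⟩ := ih (by omega)
    set V : Finset ℕ := (range n).image (fun r => σ r / 2 - t r) ∪
      (range n).image (fun r => σ r - σ r / 2 + t r) with hV
    have hVc : V.card ≤ 2 * n := by
      have h1 := Finset.card_union_le ((range n).image (fun r => σ r / 2 - t r))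
        ((range n).image (fun r => σ r - σ r / 2 + t r))
      have h2 : ((range n).image (fun r => σ r / 2 - t r)).card ≤ n := by
        simpa using (Finset.card_image_le (s := range n) (f := fun r => σ r / 2 - t r))
      have h3 : ((range n).image (fun r => σ r - σ r / 2 + t r)).card ≤ n := by
        simpa using (Finset.card_image_le (s := range n) (f := fun r => σ r - σ r / 2 + t r))
      rw [hV]
      omega
    set B : Finset ℕ := V.image (fun v => σ n / 2 - v) ∪ V.image (fun v => v - (σ n - σ n / 2))
      with hB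
    have hBc : B.card ≤ 4 * n := by
      have h1 := Finset.card_union_le (V.image (fun v => σ n / 2 - v))
        (V.image (fun v => v - (σ n - σ n / 2)))
      have h2 : (V.image (fun v => σ n / 2 - v)).card ≤ V.card := Finset.card_image_le
      have h3 : (V.image (fun v => v - (σ n - σ n / 2))).card ≤ V.card := Finset.card_image_le
      rw [hB]
      omega
    have hex : ∃ u ∈ Finset.Icc 1 (4 * R + 1), u ∉ B := by
      by_contra hcon
      push Not at hcon
      have h1 : (Finset.Icc 1 (4 * R + 1)).card ≤ B.card :=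
        Finset.card_le_card fun u hu => hcon u hu
      rw [Nat.card_Icc] at h1
      omega
    obtain ⟨u, hu, huB⟩ := hex
    rw [Finset.mem_Icc] at hu
    have hx : σ n / 2 - u ∉ V := by
      intro hmem
      apply huB
      rw [hB, Finset.mem_union]
      left
      rw [Finset.mem_image]
      refine ⟨_, hmem, ?_⟩
      have := hσ n
      omega
    have hy : σ n - σ n / 2 + u ∉ V := by
      intro hmem
      apply huB
      rw [hB, Finset.mem_union]
      right
      rw [Finset.mem_image]
      refine ⟨_, hmem, ?_⟩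
      omega
    have hVx : ∀ r < n, σ r / 2 - t r ∈ V := fun r hr => by
      rw [hV, Finset.mem_union]
      left
      exact Finset.mem_image.2 ⟨r, Finset.mem_range.2 hr, rfl⟩
    have hVy : ∀ r < n, σ r - σ r / 2 + t r ∈ V := fun r hr => by
      rw [hV, Finset.mem_union]
      right
      exact Finset.mem_image.2 ⟨r, Finset.mem_range.2 hr, rfl⟩
    refine ⟨fun r => if r = n then u else t r, ?_, ?_⟩
    · intro r hr
      by_cases h : r = n
      · simp only [h, if_true]
        exact hu
      · simp only [h, if_false]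
        exact ht1 r (by omega)
    · intro r hr r' hr' hne
      by_cases h : r = n
      · have h' : r' ≠ n := by omega
        have hr'n : r' < n := by omega
        simp only [h, if_true, h', if_false]
        refine ⟨?_, ?_, ?_⟩
        · intro he
          exact hx (he ▸ hVx r' hr'n)
        · intro he
          exact hx (he ▸ hVy r' hr'n)
        · intro he
          exact hy (he ▸ hVy r' hr'n)
      · have hrn : r < n := by omega
        by_cases h' : r' = n
        · simp only [h', if_true, h, if_false]
          refine ⟨?_, ?_, ?_⟩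
          · intro he
            exact hx (he ▸ hVx r hrn)
          · intro he
            exact hy (he ▸ hVx r hrn)
          · intro he
            exact hy (he ▸ hVy r hrn)
        · simp only [h, h', if_false]
          exact ht2 r hrn r' (by omega) hne

/-- [LC'] The number of normal points, of pure letters and the exponents of the special letters
(two for every row, all different). `tau q r` = number of test marks of the normal point `q` in the
row `r`. -/
theorem exists_rows2 (k b R K wm : ℕ) (lam : ℕ → ℕ) (tau : ℕ → ℕ → ℕ)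
    (hK : 16 * K ≤ k) (hR : 64 * (R + 1) ≤ k)
    (hlam : ∀ r < R, k * (wm + 2) + ∑ q ∈ range b, tau q r ≤ lam r)
    (htop : ∑ r ∈ range R, lam r + 2 * k * R ≤ k * b) :
    ∃ (N : ℕ) (w : ℕ → ℕ) (rho : ℕ → Fin 2 → ℕ), N ≤ b ∧
      k * b ≤ k * N + ∑ r ∈ range R, lam r + 2 * k * R ∧
      (∀ r < R, lam r = k * w r + ∑ q ∈ range N, tau q r + (rho r 0 + rho r 1)) ∧
      (∀ r < R, wm ≤ w r) ∧ ∑ r ∈ range R, w r + (2 * R + N) = b ∧
      (∀ r < R, ∀ j, K < rho r j ∧ rho r j < k) ∧
      ∀ r < R, ∀ r' < R, ∀ j j', rho r j = rho r' j' → r = r' ∧ j = j' := by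
  classical
  have hk0 : 0 < k := by omega
  set t : ℕ → ℕ → ℕ := fun N r => ∑ q ∈ range N, tau q r with ht
  have tmono : ∀ r N N', N ≤ N' → t N r ≤ t N' r := by
    intro r N N' h
    exact Finset.sum_le_sum_of_subset (Finset.range_subset_range.2 h)
  set kh : ℕ := (k + 1) / 2 with hkh
  set M : ℕ → ℕ → ℕ := fun N r => lam r - t N r - kh with hM
  set w : ℕ → ℕ → ℕ := fun N r => M N r / k with hw
  have hMge : ∀ N, N ≤ b → ∀ r < R, k * (wm + 1) ≤ M N r ∧ lam r = M N r + t N r + kh := by
    intro N hN r hr
    have h1 := hlam r hr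
    have h2 := tmono r N b hN
    have h4 : k * (wm + 2) = k * (wm + 1) + k := by ring
    have h5 : ∑ q ∈ range b, tau q r = t b r := rfl
    rw [h5] at h1
    simp only [hM]
    constructor <;> omega
  have wanti : ∀ N N', N ≤ N' → ∀ r, w N' r ≤ w N r := by
    intro N N' h r
    apply Nat.div_le_div_right
    have := tmono r N N' h
    simp only [hM]
    omega
  have kw_le : ∀ N r, k * w N r ≤ lam r := by
    intro N r
    have h1 : k * (M N r / k) ≤ M N r := Nat.mul_div_le _ _
    have h2 : M N r ≤ lam r := by simp only [hM]; omega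
    exact h1.trans h2
  set Phi : ℕ → ℕ := fun N => ∑ r ∈ range R, w N r + (2 * R + N) with hPhi
  have hksum : ∀ N, k * ∑ r ∈ range R, w N r ≤ ∑ r ∈ range R, lam r := by
    intro N
    rw [Finset.mul_sum]
    exact Finset.sum_le_sum fun r _ => kw_le N r
  have hsumle : ∀ N, ∑ r ∈ range R, w N r + 2 * R ≤ b := by
    intro N
    have h1 := hksum N
    have h2 : k * (∑ r ∈ range R, w N r + 2 * R) ≤ k * b := by
      calc k * (∑ r ∈ range R, w N r + 2 * R)
          = k * ∑ r ∈ range R, w N r + 2 * k * R := by ring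
        _ ≤ ∑ r ∈ range R, lam r + 2 * k * R := by omega
        _ ≤ k * b := htop
    exact Nat.le_of_mul_le_mul_left h2 hk0
  have hex : ∃ N, b ≤ Phi N := ⟨b, by simp only [hPhi]; omega⟩
  obtain ⟨hN1, hNmin⟩ : b ≤ Phi (Nat.find hex) ∧ ∀ N < Nat.find hex, Phi N < b :=
    ⟨Nat.find_spec hex, fun N hN => by
      have := Nat.find_min hex hN
      omega⟩
  set N := Nat.find hex with hNdef
  have hNb : N ≤ b := Nat.find_min' hex (by simp only [hPhi]; omega)
  have hPhiN : Phi N = b := by
    apply le_antisymm _ hN1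
    rcases Nat.eq_zero_or_pos N with h0 | hpos
    · have h1 := hsumle 0
      rw [h0]
      simp only [hPhi]
      omega
    · have h1 := hNmin (N - 1) (by omega)
      have h2 : Phi N ≤ Phi (N - 1) + 1 := by
        have h3 : ∑ r ∈ range R, w N r ≤ ∑ r ∈ range R, w (N - 1) r :=
          Finset.sum_le_sum fun r _ => wanti (N - 1) N (by omega) r
        simp only [hPhi]
        omega
      omega
  -- the sums of the two exponents
  set σ : ℕ → ℕ := fun r => kh + M N r % k with hσ
  have hσ1 : ∀ r, kh ≤ σ r ∧ σ r < kh + k := by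
    intro r
    have := Nat.mod_lt (M N r) hk0
    simp only [hσ]
    omega
  obtain ⟨s, hs1, hs2⟩ := exists_shifts R σ (fun r => by have := (hσ1 r).1; omega) R le_rfl
  have hx : ∀ r < R, K < σ r / 2 - s r ∧ σ r / 2 - s r < σ r - σ r / 2 + s r ∧
      σ r - σ r / 2 + s r < k := by
    intro r hr
    obtain ⟨h1, h2⟩ := hσ1 r
    obtain ⟨h3, h4⟩ := hs1 r hr
    refine ⟨?_, ?_, ?_⟩ <;> omega
  refine ⟨N, w N, fun r => ![σ r / 2 - s r, σ r - σ r / 2 + s r], hNb, ?_, ?_, ?_, ?_, ?_, ?_⟩
  · have h1 := hksum N
    have h2 : ∑ r ∈ range R, w N r + (2 * R + N) = b := hPhiN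
    calc k * b = k * ∑ r ∈ range R, w N r + 2 * k * R + k * N := by rw [← h2]; ring
      _ ≤ k * N + ∑ r ∈ range R, lam r + 2 * k * R := by omega
  · intro r hr
    obtain ⟨h1, h2⟩ := hMge N hNb r hr
    have h4 : k * w N r + M N r % k = M N r := Nat.div_add_mod _ _
    have h5 : ∑ q ∈ range N, tau q r = t N r := rfl
    have h6 : σ r = kh + M N r % k := rfl
    obtain ⟨h7, h8, h9⟩ := hx r hr
    rw [h5]
    show lam r = k * w N r + t N r + (σ r / 2 - s r + (σ r - σ r / 2 + s r))
    omega
  · intro r hr
    obtain ⟨h1, -⟩ := hMge N hNb r hr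
    have h2 : wm + 1 ≤ M N r / k := (Nat.le_div_iff_mul_le hk0).2 (by rw [mul_comm]; exact h1)
    show wm ≤ M N r / k
    omega
  · exact hPhiN
  · intro r hr j
    obtain ⟨h7, h8, h9⟩ := hx r hr
    fin_cases j
    · show K < σ r / 2 - s r ∧ σ r / 2 - s r < k
      omega
    · show K < σ r - σ r / 2 + s r ∧ σ r - σ r / 2 + s r < k
      omega
  · intro r hr r' hr' j j' he
    obtain ⟨h7, h8, h9⟩ := hx r hr
    obtain ⟨h7', h8', h9'⟩ := hx r' hr'
    by_cases hrr : r = r'
    · subst hrr
      refine ⟨rfl, ?_⟩
      fin_cases j <;> fin_cases j'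
      · rfl
      · exfalso
        have he' : σ r / 2 - s r = σ r - σ r / 2 + s r := he
        omega
      · exfalso
        have he' : σ r - σ r / 2 + s r = σ r / 2 - s r := he
        omega
      · rfl
    · exfalso
      obtain ⟨g1, g2, g3⟩ := hs2 r hr r' hr' hrr
      obtain ⟨-, g4, -⟩ := hs2 r' hr' r hr (Ne.symm hrr)
      fin_cases j <;> fin_cases j'
      · exact g1 he
      · exact g2 he
      · exact g4 he.symm
      · exact g3 he

end Vale.Agent.P181.T6
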